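import Mathlib
import Crest.Prelude.Def_Polar

set_option autoImplicit false
open Pointwise Crest.AnalysisR Finset

namespace Crest.Agent.R71

/-- The columns of a matrix as vectors of Euclidean space. -/
noncomputable def col {n : ℕ} {F : Type} (M : Fin n → F → ℝ) (u : F) :
    EuclideanSpace ℝ (Fin n) := WithLp.toLp 2 (fun j => M j u)

/-- The set whose polar is the body `K`. -/
def Yset {n : ℕ} {F : Type} (M : Fin n → F → ℝ) (a : ℝ) : Set (EuclideanSpace ℝ (Fin n)) :=
  {y | (∀ u, |∑ j, y j * M j u| ≤ 1) ∧ ∑ j, |y j| ≤ 2 * a}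

lemma inner_eq {n : ℕ} (x y : EuclideanSpace ℝ (Fin n)) :
    inner ℝ x y = ∑ j, x j * y j := by
  simp [PiLp.inner_apply, mul_comm]

lemma polar_convex {E : Type*} [NormedAddCommGroup E] [InnerProductSpace ℝ E] (Y : Set E) :
    Convex ℝ (polarSet Y) := by
  intro x hx y hy s t hs ht hst z hz
  have h1 := hx z hz
  have h2 := hy z hz
  rw [inner_add_right, inner_smul_right, inner_smul_right]
  nlinarith

lemma polar_closed {E : Type*} [NormedAddCommGroup E] [InnerProductSpace ℝ E] (Y : Set E) :
    IsClosed (polarSet Y) := by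
  have : polarSet Y = ⋂ z ∈ Y, {y : E | inner ℝ z y ≤ 1} := by
    ext y; simp [polarSet]
  rw [this]
  refine isClosed_biInter fun z _ => ?_
  exact isClosed_le (by fun_prop) continuous_const

theorem reduction {n : ℕ} (hn : 0 < n) {F : Type} [Fintype F] [DecidableEq F]
    (a b : ℝ) (ha : 1 ≤ a) (hb : 1 ≤ b) (M : Fin n → F → ℝ) (hM : ∀ j u, |M j u| ≤ 3)
    (C : Finset (F → ℝ)) (Y W : ℕ) (hY1 : 1 ≤ Y)
    (hcov : ∀ μ : Fin n → ℝ, ∑ x, |μ x| ≤ 1 →
      ∃ g ∈ C, ∀ u, |∑ x, μ x * M x u - g u| ≤ 1 / (2 * a))
    (hY : C.card ≤ Y)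
    (hW : ∀ u0, (univ.filter (fun u => ∀ x, |M x u - M x u0| ≤ 2)).card ≤ W)
    (hbig : ∀ t : ℕ, Fintype.card F ≤ t * W → b * Real.log Y < Real.log t) :
    ∃ n : ℕ, 0 < n ∧ ∃ K : Set (EuclideanSpace ℝ (Fin n)),
      Convex ℝ K ∧ IsCompact K ∧ (interior K).Nonempty ∧ (∀ x ∈ K, -x ∈ K) ∧
      ∃ t₁ : Finset (EuclideanSpace ℝ (Fin n)),
        polarSet {x : EuclideanSpace ℝ (Fin n) | ∀ i, |x i| ≤ 1} ⊆
          ⋃ y ∈ t₁, (y +ᵥ a⁻¹ • polarSet K) ∧
        ∀ t₂ : Finset (EuclideanSpace ℝ (Fin n)),
          K ⊆ ⋃ x ∈ t₂, (x +ᵥ {z : EuclideanSpace ℝ (Fin n) | ∀ i, |z i| ≤ 1}) →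
          b * Real.log t₁.card < Real.log t₂.card := by
  classical
  have ha0 : 0 < a := by linarith
  have hYsymm : ∀ y ∈ Yset M a, -y ∈ Yset M a := by
    rintro y ⟨h1, h2⟩
    refine ⟨fun u => ?_, by simpa using h2⟩
    have := h1 u
    simpa [abs_neg, Finset.sum_neg_distrib] using this
  refine ⟨n, hn, polarSet (Yset M a), polar_convex _, ?_, ?_, ?_, ?_⟩
  · -- compact
    refine Metric.isCompact_of_isClosed_isBounded (polar_closed _) ?_
    have hcoord : ∀ k ∈ polarSet (Yset M a), ∀ j, |k j| ≤ 3 := by
      intro k hk j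
      have hmem : (EuclideanSpace.single j (1 / 3 : ℝ)) ∈ Yset M a := by
        refine ⟨fun u => ?_, ?_⟩
        · have := hM j u
          rw [Finset.sum_eq_single j]
          · simp only [PiLp.single_apply, if_true, abs_mul]
            rw [abs_of_pos (by norm_num : (0 : ℝ) < 1 / 3)]
            linarith
          · intro i _ hi; simp [hi]
          · simp
        · rw [Finset.sum_eq_single j]
          · simp only [PiLp.single_apply, if_true]
            rw [abs_of_pos (by norm_num : (0 : ℝ) < 1 / 3)]
            linarith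
          · intro i _ hi; simp [hi]
          · simp
      have h1 := hk _ hmem
      have h2 := hk _ (hYsymm _ hmem)
      rw [inner_neg_left] at h2
      rw [EuclideanSpace.inner_single_left] at h1 h2
      simp only [conj_trivial] at h1 h2
      rw [abs_le]; constructor <;> linarith
    rw [isBounded_iff_forall_norm_le]
    refine ⟨Real.sqrt (∑ _j : Fin n, (9 : ℝ)), fun k hk => ?_⟩
    rw [EuclideanSpace.norm_eq]
    apply Real.sqrt_le_sqrt
    refine Finset.sum_le_sum fun j _ => ?_
    have := hcoord k hk j
    rw [Real.norm_eq_abs]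
    nlinarith [abs_nonneg (k j)]
  · -- interior
    refine ⟨0, ?_⟩
    rw [mem_interior_iff_mem_nhds]
    have hr : 0 < 1 / (2 * a) := by positivity
    refine Filter.mem_of_superset (Metric.ball_mem_nhds 0 hr) ?_
    intro k hk y hy
    rw [mem_ball_zero_iff] at hk
    rw [inner_eq]
    have hkj : ∀ j, |k j| ≤ 1 / (2 * a) := fun j => by
      have := PiLp.norm_apply_le k j
      rw [Real.norm_eq_abs] at this
      linarith
    calc ∑ j, y j * k j ≤ ∑ j, |y j| * (1 / (2 * a)) := by
          refine Finset.sum_le_sum fun j _ => ?_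
          calc y j * k j ≤ |y j * k j| := le_abs_self _
            _ = |y j| * |k j| := abs_mul _ _
            _ ≤ |y j| * (1 / (2 * a)) := mul_le_mul_of_nonneg_left (hkj j) (abs_nonneg _)
      _ = (∑ j, |y j|) * (1 / (2 * a)) := by rw [Finset.sum_mul]
      _ ≤ (2 * a) * (1 / (2 * a)) := mul_le_mul_of_nonneg_right hy.2 hr.le
      _ = 1 := by field_simp
  · -- symmetric
    intro k hk y hy
    have := hk _ (hYsymm y hy)
    rwa [inner_neg_left, ← inner_neg_right] at this
  · -- coverings
    let good : (F → ℝ) → EuclideanSpace ℝ (Fin n) → Prop := fun g y =>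
      ∑ x, |y x| ≤ 1 ∧ ∀ u, |∑ x, y x * M x u - g u| ≤ 1 / (2 * a)
    let rep : (F → ℝ) → EuclideanSpace ℝ (Fin n) := fun g =>
      if h : ∃ y, good g y then h.choose else 0
    have hrep : ∀ g y, good g y → good g (rep g) := by
      intro g y hy
      have h : ∃ y, good g y := ⟨y, hy⟩
      simp only [rep, dif_pos h]
      exact h.choose_spec
    refine ⟨C.image rep, ?_, ?_⟩
    · intro y hy
      have hy1 : ∑ x, |y x| ≤ 1 := by
        have hs : (WithLp.toLp 2 (fun j => (SignType.sign (y j) : ℝ)) : EuclideanSpace ℝ (Fin n)) ∈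
            {x : EuclideanSpace ℝ (Fin n) | ∀ i, |x i| ≤ 1} := by
          intro i
          rcases lt_trichotomy (y i) 0 with h | h | h <;> simp [h, sign_neg, sign_pos]
        have := hy _ hs
        rw [inner_eq] at this
        simpa [sign_mul_self] using this
      obtain ⟨g, hgC, hg⟩ := hcov (fun x => y x) hy1
      have hgood : good g y := ⟨hy1, hg⟩
      obtain ⟨hr1, hr2⟩ := hrep g y hgood
      simp only [Set.mem_iUnion]
      refine ⟨rep g, Finset.mem_image_of_mem _ hgC, ?_⟩
      rw [Set.mem_vadd_set]
      refine ⟨y - rep g, ?_, by simp⟩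
      rw [Set.mem_smul_set]
      refine ⟨a • (y - rep g), ?_, by rw [smul_smul, inv_mul_cancel₀ ha0.ne', one_smul]⟩
      have hmem : a • (y - rep g) ∈ Yset M a := by
        refine ⟨fun u => ?_, ?_⟩
        · have e : ∑ j, (a • (y - rep g)) j * M j u =
              a * ((∑ x, y x * M x u - g u) - (∑ x, rep g x * M x u - g u)) := by
            simp only [PiLp.smul_apply, PiLp.sub_apply, smul_eq_mul]
            rw [sub_sub_sub_cancel_right, ← Finset.sum_sub_distrib, Finset.mul_sum]
            exact Finset.sum_congr rfl fun j _ => by ring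
          rw [e, abs_mul, abs_of_pos ha0]
          have h1 := hg u
          have h2 := hr2 u
          have h3 := abs_sub (∑ x, y x * M x u - g u) (∑ x, rep g x * M x u - g u)
          calc a * |(∑ x, y x * M x u - g u) - (∑ x, rep g x * M x u - g u)|
              ≤ a * (1 / (2 * a) + 1 / (2 * a)) :=
                mul_le_mul_of_nonneg_left (by linarith) ha0.le
            _ = 1 := by field_simp; ring
        · calc ∑ j, |(a • (y - rep g)) j| ≤ ∑ j, a * (|y j| + |rep g j|) := by
                refine Finset.sum_le_sum fun j _ => ?_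
                simp only [PiLp.smul_apply, PiLp.sub_apply, smul_eq_mul]
                rw [abs_mul, abs_of_pos ha0]
                exact mul_le_mul_of_nonneg_left (abs_sub _ _) ha0.le
            _ = a * (∑ j, |y j| + ∑ j, |rep g j|) := by
                rw [← Finset.mul_sum, Finset.sum_add_distrib]
            _ ≤ 2 * a := by nlinarith
      intro k hk
      rw [real_inner_comm]
      exact hk _ hmem
    · intro t₂ ht₂
      have hcolK : ∀ u, col M u ∈ polarSet (Yset M a) := by
        intro u y hy
        rw [inner_eq]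
        exact (le_abs_self _).trans (hy.1 u)
      have hx : ∀ u, ∃ x ∈ t₂, ∀ i, |M i u - x i| ≤ 1 := by
        intro u
        have := ht₂ (hcolK u)
        simp only [Set.mem_iUnion] at this
        obtain ⟨x, hx, hmem⟩ := this
        rw [Set.mem_vadd_set] at hmem
        obtain ⟨z, hz, hzx⟩ := hmem
        refine ⟨x, hx, fun i => ?_⟩
        have : M i u = x i + z i := by
          have := congrArg (fun v : EuclideanSpace ℝ (Fin n) => v i) hzx
          simpa [col] using this.symm
        rw [this]; simpa using hz i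
      choose c hc hc' using hx
      have hcard : Fintype.card F ≤ t₂.card * W := by
        rw [← Finset.card_univ, mul_comm]
        refine Finset.card_le_mul_card_image_of_maps_to (f := c) (fun u _ => hc u) W ?_
        intro x _
        rcases (univ.filter (fun u => c u = x)).eq_empty_or_nonempty with h | ⟨u0, hu0⟩
        · rw [h]; simp
        · refine le_trans (Finset.card_le_card ?_) (hW u0)
          intro u hu
          simp only [Finset.mem_filter, Finset.mem_univ, true_and] at hu hu0 ⊢
          intro i
          have h1 := hc' u i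
          have h2 := hc' u0 i
          rw [hu] at h1
          rw [hu0] at h2
          have := abs_sub (M i u - x i) (M i u0 - x i)
          rw [sub_sub_sub_cancel_right] at this
          linarith
      refine lt_of_le_of_lt ?_ (hbig _ hcard)
      have hb0 : 0 ≤ b := by linarith
      refine mul_le_mul_of_nonneg_left ?_ hb0
      have hle : (C.image rep).card ≤ Y := Finset.card_image_le.trans hY
      rcases Nat.eq_zero_or_pos (C.image rep).card with h | h
      · rw [h]; simp only [Nat.cast_zero, Real.log_zero]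
        exact Real.log_nonneg (by exact_mod_cast hY1)
      · exact Real.log_le_log (by exact_mod_cast h) (by exact_mod_cast hle)

end Crest.Agent.R71
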