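import Mathlib

set_option autoImplicit false
open Finset

namespace Crest.Agent.R71

/-- Greedy choice of a short list of reference words. -/
lemma greedy {W X : Type} [Fintype X] [Nonempty W] (D : X → W → ℕ) (A : ℕ)
    (hA : ∀ x u, D x u ≤ A) (p : X → ℝ) (hp : ∀ x, 0 ≤ p x) (hp1 : ∑ x, p x ≤ 1)
    (δ : ℝ) (k : ℕ) :
    ∃ (U : ℕ → W) (r : X → ℕ), (∀ x, r x ≤ k) ∧
      ((∀ u, ∑ x, (if D x u < D x (U (r x)) then p x else 0) ≤ δ) ∨
        ∑ x, p x * D x (U (r x)) ≤ A - k * δ) := by
  classical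
  induction k with
  | zero =>
    refine ⟨fun _ => Classical.arbitrary W, fun _ => 0, fun _ => le_rfl, Or.inr ?_⟩
    have : ∑ x, p x * (D x (Classical.arbitrary W) : ℝ) ≤ ∑ x, p x * A :=
      Finset.sum_le_sum fun x _ =>
        mul_le_mul_of_nonneg_left (by exact_mod_cast hA x _) (hp x)
    rw [← Finset.sum_mul] at this
    have hA0 : (0 : ℝ) ≤ A := Nat.cast_nonneg _
    simp only [Nat.cast_zero, zero_mul, sub_zero]
    nlinarith
  | succ k ih =>
    obtain ⟨U, r, hr, h⟩ := ih
    by_cases hgood : ∀ u, ∑ x, (if D x u < D x (U (r x)) then p x else 0) ≤ δ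
    · exact ⟨U, r, fun x => (hr x).trans (Nat.le_succ _), Or.inl hgood⟩
    · have h := h.resolve_left hgood
      push Not at hgood
      obtain ⟨u, hu⟩ := hgood
      refine ⟨Function.update U (k + 1) u,
        fun x => if D x u < D x (U (r x)) then k + 1 else r x, fun x => ?_, Or.inr ?_⟩
      · have := hr x
        dsimp only
        split_ifs <;> omega
      · have key : ∀ x, p x * (D x (Function.update U (k + 1) u
            (if D x u < D x (U (r x)) then k + 1 else r x)) : ℝ) ≤
            p x * D x (U (r x)) - (if D x u < D x (U (r x)) then p x else 0) := by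
          intro x
          have hx := hr x
          by_cases hlt : D x u < D x (U (r x))
          · simp only [hlt, if_true, Function.update_self]
            have : (D x u : ℝ) + 1 ≤ D x (U (r x)) := by exact_mod_cast hlt
            nlinarith [hp x]
          · have hne : r x ≠ k + 1 := by omega
            simp only [hlt, if_false, Function.update_of_ne hne, sub_zero, le_refl]
        have := Finset.sum_le_sum (s := univ) fun x _ => key x
        rw [Finset.sum_sub_distrib] at this
        push_cast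
        linarith

/-- The covering lemma for a family of quasi-ultrametrics. -/
theorem cover {S W X ι : Type} [Fintype S] [DecidableEq S] [Fintype X] [Fintype ι] [Nonempty ι]
    [Nonempty W] (d : S → W → W → ℕ) (A K : ℕ)
    (hA : ∀ E u v, d E u v ≤ A) (hsymm : ∀ E u v, d E u v = d E v u)
    (hq : ∀ E u v w, d E u w ≤ max (d E u v) (d E v w) + 1)
    (δ : ℝ) (hK : (A : ℝ) < K * δ)
    (bad : ι → S → Prop) [∀ i E, Decidable (bad i E)]
    (hbad : ∀ E, ((univ.filter (fun i => bad i E)).card : ℝ) ≤ δ * Fintype.card ι)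
    (R : ι → Finset W) (hR : ∀ i u, ∃ v ∈ R i, ∀ E, ¬ bad i E → d E u v = 0)
    (net : Finset (S × Fin (K + 1) × Fin (A + 1) → ℝ))
    (hnet : ∀ ν : S × Fin (K + 1) × Fin (A + 1) → ℝ, ∑ z, |ν z| ≤ 1 →
      ∃ ν' ∈ net, (∑ z, |ν z - ν' z|) * A ≤ 1)
    (site : X → S) (word : X → W) (μ : X → ℝ) (hμ : ∑ x, |μ x| ≤ 1) :
    ∃ i : ι, ∃ V : Fin (K + 1) → W, (∀ r, V r ∈ R i) ∧ ∃ ν' ∈ net, ∀ u,
      |∑ x, μ x * d (site x) u (word x) -
        ∑ z, ν' z * ((max (d z.1 u (V z.2.1)) z.2.2 : ℕ) : ℝ)| ≤ 3 + 2 * δ * A := by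
  classical
  obtain ⟨U, r, hr, h⟩ := greedy (fun x u => d (site x) u (word x)) A (fun x u => hA _ _ _)
    (fun x => |μ x|) (fun x => abs_nonneg _) hμ δ K
  have hgood : ∀ u, ∑ x, (if d (site x) u (word x) < d (site x) (U (r x)) (word x)
      then |μ x| else 0) ≤ δ := by
    refine h.resolve_right ?_
    have : 0 ≤ ∑ x, |μ x| * (d (site x) (U (r x)) (word x) : ℝ) :=
      Finset.sum_nonneg fun x _ => mul_nonneg (abs_nonneg _) (Nat.cast_nonneg _)
    linarith
  have hδ : 0 ≤ δ := by
    have h0 : (0 : ℝ) ≤ ∑ x, (if d (site x) (U 0) (word x) < d (site x) (U (r x)) (word x)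
      then |μ x| else 0) := Finset.sum_nonneg fun x _ => by split_ifs <;> positivity
    exact h0.trans (hgood _)
  -- the index `i`
  obtain ⟨i, -, hi⟩ : ∃ i ∈ (univ : Finset ι),
      ∑ x, (if bad i (site x) then |μ x| else 0) ≤ δ := by
    apply Finset.exists_le_of_sum_le Finset.univ_nonempty
    rw [Finset.sum_comm]
    calc ∑ x, ∑ i, (if bad i (site x) then |μ x| else 0)
        = ∑ x, |μ x| * ((univ.filter (fun i => bad i (site x))).card : ℝ) := by
          refine Finset.sum_congr rfl fun x _ => ?_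
          rw [← Finset.sum_filter, Finset.sum_const, nsmul_eq_mul, mul_comm]
      _ ≤ ∑ x, |μ x| * (δ * Fintype.card ι) :=
          Finset.sum_le_sum fun x _ => mul_le_mul_of_nonneg_left (hbad _) (abs_nonneg _)
      _ = (∑ x, |μ x|) * (δ * Fintype.card ι) := by rw [Finset.sum_mul]
      _ ≤ 1 * (δ * Fintype.card ι) := mul_le_mul_of_nonneg_right hμ (by positivity)
      _ = ∑ _i : ι, δ := by simp [mul_comm]
  choose V hVR hV using fun s : Fin (K + 1) => hR i (U s)
  let key : X → S × Fin (K + 1) × Fin (A + 1) := fun x =>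
    (site x, ⟨r x, Nat.lt_succ_of_le (hr x)⟩,
      ⟨d (site x) (U (r x)) (word x), Nat.lt_succ_of_le (hA _ _ _)⟩)
  let ν : S × Fin (K + 1) × Fin (A + 1) → ℝ := fun z => ∑ x ∈ univ.filter (fun x => key x = z), μ x
  have hν : ∑ z, |ν z| ≤ 1 := by
    calc ∑ z, |ν z| ≤ ∑ z, ∑ x ∈ univ.filter (fun x => key x = z), |μ x| :=
          Finset.sum_le_sum fun z _ => Finset.abs_sum_le_sum_abs _ _
      _ = ∑ x, |μ x| := Finset.sum_fiberwise _ _ _
      _ ≤ 1 := hμ
  obtain ⟨ν', hν'net, hν'⟩ := hnet ν hν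
  refine ⟨i, V, hVR, ν', hν'net, fun u => ?_⟩
  let val : S × Fin (K + 1) × Fin (A + 1) → ℕ := fun z => max (d z.1 u (V z.2.1)) z.2.2
  have hval : ∀ z, val z ≤ A := fun z => max_le (hA _ _ _) (Nat.le_of_lt_succ z.2.2.2)
  have hA0 : (0 : ℝ) ≤ A := Nat.cast_nonneg _
  have e1 : ∑ z, ν z * (val z : ℝ) = ∑ x, μ x * (val (key x) : ℝ) := by
    rw [← Finset.sum_fiberwise (s := univ) (g := key) (f := fun x => μ x * (val (key x) : ℝ))]
    refine Finset.sum_congr rfl fun z _ => ?_
    simp only [ν]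
    rw [Finset.sum_mul]
    refine Finset.sum_congr rfl fun x hx => ?_
    rw [(Finset.mem_filter.mp hx).2]
  have e2 : |∑ z, ν z * (val z : ℝ) - ∑ z, ν' z * (val z : ℝ)| ≤ 1 := by
    rw [← Finset.sum_sub_distrib]
    refine (Finset.abs_sum_le_sum_abs _ _).trans (le_trans ?_ hν')
    rw [Finset.sum_mul]
    refine Finset.sum_le_sum fun z _ => ?_
    rw [← sub_mul, abs_mul, Nat.abs_cast]
    exact mul_le_mul_of_nonneg_left (by exact_mod_cast hval z) (abs_nonneg _)
  have hpt : ∀ x, |μ x * d (site x) u (word x) - μ x * (val (key x) : ℝ)| ≤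
      2 * |μ x| + A * (if bad i (site x) then |μ x| else 0) +
        A * (if d (site x) u (word x) < d (site x) (U (r x)) (word x) then |μ x| else 0) := by
    intro x
    rw [← mul_sub, abs_mul]
    have hμx := abs_nonneg (μ x)
    have hgen : |(d (site x) u (word x) : ℝ) - (val (key x) : ℝ)| ≤ A := by
      have h1 : (d (site x) u (word x) : ℝ) ≤ A := by exact_mod_cast hA _ _ _
      have h2 : (val (key x) : ℝ) ≤ A := by exact_mod_cast hval _
      have h3 : (0 : ℝ) ≤ d (site x) u (word x) := Nat.cast_nonneg _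
      have h4 : (0 : ℝ) ≤ val (key x) := Nat.cast_nonneg _
      rw [abs_le]; constructor <;> linarith
    have hmul := mul_le_mul_of_nonneg_left hgen hμx
    by_cases hb : bad i (site x)
    · simp only [hb, if_true]
      split_ifs <;> nlinarith
    · by_cases hlt : d (site x) u (word x) < d (site x) (U (r x)) (word x)
      · simp only [hb, hlt, if_true, if_false]
        nlinarith
      · simp only [hb, hlt, if_false, mul_zero, add_zero]
        have h0 := hV ⟨r x, Nat.lt_succ_of_le (hr x)⟩ (site x) hb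
        have hv : val (key x) = max (d (site x) u (V ⟨r x, Nat.lt_succ_of_le (hr x)⟩))
            (d (site x) (U (r x)) (word x)) := rfl
        set Vr := V ⟨r x, Nat.lt_succ_of_le (hr x)⟩ with hVr
        have h0' : d (site x) (U (r x)) Vr = 0 := h0
        have h1 := hq (site x) u (U (r x)) (word x)
        have h2 := hq (site x) u Vr (U (r x))
        have h3 := hq (site x) u (U (r x)) Vr
        have h4 := hq (site x) u (word x) (U (r x))
        rw [hsymm (site x) Vr, h0'] at h2
        rw [h0'] at h3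
        rw [hsymm (site x) (word x)] at h4
        have h5 : d (site x) u (word x) ≤ val (key x) + 2 := by rw [hv]; omega
        have h6 : val (key x) ≤ d (site x) u (word x) + 2 := by rw [hv]; omega
        have h5' : (d (site x) u (word x) : ℝ) ≤ val (key x) + 2 := by exact_mod_cast h5
        have h6' : (val (key x) : ℝ) ≤ d (site x) u (word x) + 2 := by exact_mod_cast h6
        have : |(d (site x) u (word x) : ℝ) - (val (key x) : ℝ)| ≤ 2 := by
          rw [abs_le]; constructor <;> linarith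
        nlinarith
  have e3 : |∑ x, μ x * d (site x) u (word x) - ∑ x, μ x * (val (key x) : ℝ)| ≤
      2 + 2 * δ * A := by
    rw [← Finset.sum_sub_distrib]
    refine (Finset.abs_sum_le_sum_abs _ _).trans ((Finset.sum_le_sum fun x _ => hpt x).trans ?_)
    rw [Finset.sum_add_distrib, Finset.sum_add_distrib, ← Finset.mul_sum, ← Finset.mul_sum,
      ← Finset.mul_sum]
    have h1 := mul_le_mul_of_nonneg_left hi hA0
    have h2 := mul_le_mul_of_nonneg_left (hgood u) hA0
    nlinarith
  rw [← e1] at e3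
  have := abs_sub_le (∑ x, μ x * (d (site x) u (word x) : ℝ)) (∑ z, ν z * (val z : ℝ))
    (∑ z, ν' z * (val z : ℝ))
  change |∑ x, μ x * (d (site x) u (word x) : ℝ) - ∑ z, ν' z * (val z : ℝ)| ≤ _
  linarith

/-- A finite net of the `ℓ¹` ball of a finite-dimensional space. -/
lemma exists_net (Z : Type) [Fintype Z] (A : ℕ) :
    ∃ net : Finset (Z → ℝ), ∀ ν : Z → ℝ, ∑ z, |ν z| ≤ 1 →
      ∃ ν' ∈ net, (∑ z, |ν z - ν' z|) * A ≤ 1 := by
  classical
  have hr : (0 : ℝ) < 1 / (Fintype.card Z * A + 1) := by positivity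
  obtain ⟨t, -, htfin, hcov⟩ :=
    (isCompact_closedBall (0 : Z → ℝ) 1).finite_cover_balls hr
  refine ⟨htfin.toFinset, fun ν hν => ?_⟩
  have hmem : ν ∈ Metric.closedBall (0 : Z → ℝ) 1 := by
    rw [mem_closedBall_zero_iff, pi_norm_le_iff_of_nonneg zero_le_one]
    intro z
    rw [Real.norm_eq_abs]
    exact (Finset.single_le_sum (f := fun z => |ν z|) (fun z _ => abs_nonneg _)
      (Finset.mem_univ z)).trans hν
  have := hcov hmem
  simp only [Set.mem_iUnion] at this
  obtain ⟨ν', hν't, hball⟩ := this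
  refine ⟨ν', by simpa using hν't, ?_⟩
  rw [Metric.mem_ball, dist_pi_lt_iff hr] at hball
  have h1 : ∑ z, |ν z - ν' z| ≤ ∑ _z : Z, 1 / ((Fintype.card Z : ℝ) * A + 1) :=
    Finset.sum_le_sum fun z _ => by
      have := hball z
      rw [Real.dist_eq] at this
      exact this.le
  rw [Finset.sum_const, Finset.card_univ, nsmul_eq_mul] at h1
  have hA0 : (0 : ℝ) ≤ A := Nat.cast_nonneg _
  calc (∑ z, |ν z - ν' z|) * A ≤ (Fintype.card Z * (1 / ((Fintype.card Z : ℝ) * A + 1))) * A :=
        mul_le_mul_of_nonneg_right h1 hA0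
    _ = (Fintype.card Z * A) / ((Fintype.card Z : ℝ) * A + 1) := by ring
    _ ≤ 1 := by
        rw [div_le_one (by positivity)]; linarith

end Crest.Agent.R71
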