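import Mathlib

set_option autoImplicit false
open Finset

namespace Crest.Agent.R71

section box
variable {α β : Type} [Fintype α] [DecidableEq α] [Fintype β] [DecidableEq β]

/-- Functions that agree with `u0` off `D`. -/
def box (D : Finset α) (u0 : α → β) : Finset (α → β) :=
  Fintype.piFinset (fun i => if i ∈ D then univ else {u0 i})

omit [DecidableEq β] in
lemma mem_box {D : Finset α} {u0 u : α → β} : u ∈ box D u0 ↔ ∀ i, i ∉ D → u i = u0 i := by
  simp only [box, Fintype.mem_piFinset]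
  refine forall_congr' fun i => ?_
  by_cases h : i ∈ D <;> simp [h]

omit [DecidableEq β] in
lemma card_box (D : Finset α) (u0 : α → β) :
    (box D u0).card = Fintype.card β ^ D.card := by
  simp only [box, Fintype.card_piFinset]
  have : ∀ i, (if i ∈ D then (univ : Finset β) else {u0 i}).card =
      if i ∈ D then Fintype.card β else 1 := by
    intro i; split_ifs <;> simp
  simp only [this]
  rw [Finset.prod_ite]
  simp

lemma card_near [Nonempty β] (u0 : α → β) (h : ℕ) :
    (univ.filter (fun u : α → β => (univ.filter (fun i => u i ≠ u0 i)).card ≤ h)).card ≤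
      2 ^ Fintype.card α * Fintype.card β ^ h := by
  have hsub : (univ.filter (fun u : α → β => (univ.filter (fun i => u i ≠ u0 i)).card ≤ h)) ⊆
      ((univ : Finset (Finset α)).filter (fun D => D.card ≤ h)).biUnion (fun D => box D u0) := by
    intro u hu
    simp only [Finset.mem_filter, Finset.mem_univ, true_and, Finset.mem_biUnion] at hu ⊢
    refine ⟨_, hu, mem_box.mpr fun i hi => ?_⟩
    simpa using hi
  refine (Finset.card_le_card hsub).trans ?_
  refine (Finset.card_biUnion_le_card_mul _ _ (Fintype.card β ^ h) ?_).trans ?_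
  · intro D hD
    rw [card_box]
    exact Nat.pow_le_pow_right Fintype.card_pos (Finset.mem_filter.mp hD).2
  · refine Nat.mul_le_mul_right _ ?_
    refine (Finset.card_filter_le _ _).trans ?_
    simp

end box

section lev
variable {ι Γ Al : Type} [Fintype ι] [DecidableEq ι] [Fintype Γ] [DecidableEq Γ]

/-- Two words agree on the subcube `H_T`. -/
def Agree (z : Γ) (T : Finset ι) (u v : (ι → Γ) → Al) : Prop :=
  ∀ ω : ι → Γ, (∀ i ∈ T, ω i = z) → u ω = v ω

/-- Two words agree on a subcube of codimension at most `2 ^ k` that avoids `E`. -/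
def Close (z : Γ) (E : Finset ι) (k : ℕ) (u v : (ι → Γ) → Al) : Prop :=
  ∃ T : Finset ι, Disjoint T E ∧ T.card ≤ 2 ^ k ∧ Agree z T u v

open Classical in
/-- The truncated logarithmic distance. -/
noncomputable def lev (z : Γ) (A : ℕ) (E : Finset ι) (u v : (ι → Γ) → Al) : ℕ :=
  Nat.find (⟨A, Or.inl le_rfl⟩ : ∃ k, A ≤ k ∨ Close z E k u v)

omit [Fintype ι] [DecidableEq ι] [Fintype Γ] [DecidableEq Γ] in
lemma lev_le_iff {z : Γ} {A : ℕ} {E : Finset ι} {u v : (ι → Γ) → Al} {k : ℕ} :
    lev z A E u v ≤ k ↔ A ≤ k ∨ Close z E k u v := by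
  classical
  unfold lev
  rw [Nat.find_le_iff]
  constructor
  · rintro ⟨j, hj, h | ⟨T, h1, h2, h3⟩⟩
    · exact Or.inl (h.trans hj)
    · exact Or.inr ⟨T, h1, h2.trans (Nat.pow_le_pow_right (by norm_num) hj), h3⟩
  · intro h; exact ⟨k, le_rfl, h⟩

omit [Fintype ι] [DecidableEq ι] [Fintype Γ] [DecidableEq Γ] in
lemma lev_le (z : Γ) (A : ℕ) (E : Finset ι) (u v : (ι → Γ) → Al) : lev z A E u v ≤ A :=
  lev_le_iff.mpr (Or.inl le_rfl)

omit [Fintype ι] [DecidableEq ι] [Fintype Γ] [DecidableEq Γ] in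
lemma lev_symm (z : Γ) (A : ℕ) (E : Finset ι) (u v : (ι → Γ) → Al) :
    lev z A E u v = lev z A E v u := by
  have key : ∀ u v : (ι → Γ) → Al, lev z A E u v ≤ lev z A E v u := by
    intro u v
    rcases (lev_le_iff (z := z) (A := A) (E := E) (u := v) (v := u)).mp le_rfl with
      h | ⟨T, h1, h2, h3⟩
    · exact lev_le_iff.mpr (Or.inl h)
    · exact lev_le_iff.mpr (Or.inr ⟨T, h1, h2, fun ω hω => (h3 ω hω).symm⟩)
  exact le_antisymm (key u v) (key v u)

omit [Fintype ι] [Fintype Γ] [DecidableEq Γ] in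
lemma lev_quasi (z : Γ) (A : ℕ) (E : Finset ι) (u v w : (ι → Γ) → Al) :
    lev z A E u w ≤ max (lev z A E u v) (lev z A E v w) + 1 := by
  set k := max (lev z A E u v) (lev z A E v w) with hk
  have h1 : lev z A E u v ≤ k := le_max_left _ _
  have h2 : lev z A E v w ≤ k := le_max_right _ _
  rw [lev_le_iff] at h1 h2 ⊢
  rcases h1 with h1 | ⟨T, a1, a2, a3⟩
  · exact Or.inl (by omega)
  rcases h2 with h2 | ⟨T', b1, b2, b3⟩
  · exact Or.inl (by omega)
  refine Or.inr ⟨T ∪ T', Finset.disjoint_union_left.mpr ⟨a1, b1⟩, ?_, fun ω hω => ?_⟩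
  · refine (Finset.card_union_le _ _).trans ?_
    rw [pow_succ]; omega
  · exact (a3 ω fun i hi => hω i (Finset.mem_union_left _ hi)).trans
      (b3 ω fun i hi => hω i (Finset.mem_union_right _ hi))

omit [Fintype ι] [DecidableEq ι] [Fintype Γ] [DecidableEq Γ] in
lemma lev_self (z : Γ) (A : ℕ) (E : Finset ι) (u : (ι → Γ) → Al) : lev z A E u u = 0 :=
  Nat.le_zero.mp (lev_le_iff.mpr (Or.inr ⟨∅, by simp, by simp, fun _ _ => rfl⟩))

omit [Fintype ι] [DecidableEq ι] [Fintype Γ] [DecidableEq Γ] in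
lemma lev_eq_zero {z : Γ} (A : ℕ) {E : Finset ι} {i : ι} (hi : i ∉ E) {u v : (ι → Γ) → Al}
    (h : ∀ ω : ι → Γ, ω i = z → u ω = v ω) : lev z A E u v = 0 :=
  Nat.le_zero.mp (lev_le_iff.mpr (Or.inr ⟨{i}, by simpa using hi, by simp,
    fun ω hω => h ω (hω i (Finset.mem_singleton_self i))⟩))

/-- Words that differ on more than half of the cube are far apart for a suitable small `E`. -/
lemma exists_far [DecidableEq Al] (z : Γ) (t : ℕ) (u v : (ι → Γ) → Al)
    (hdis : Fintype.card (ι → Γ) < 2 * (univ.filter (fun ω => u ω ≠ v ω)).card) :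
    ∃ E : Finset ι, E.card ≤ Fintype.card Γ ^ t * t ∧
      ∀ T : Finset ι, Disjoint T E → T.card ≤ t → ¬ Agree z T u v := by
  classical
  have : Nonempty Γ := ⟨z⟩
  have hq : 0 < Fintype.card Γ := Fintype.card_pos
  set S := Fintype.card (ι → Γ) with hS
  set Q := Fintype.card Γ ^ t with hQ
  have hQ0 : 0 < Q := pow_pos hq t
  have key : ∀ p : ℕ, ∃ E : Finset ι, E.card ≤ p * t ∧
      ((∀ T : Finset ι, Disjoint T E → T.card ≤ t → ¬ Agree z T u v) ∨
        ∃ G : Finset (ι → Γ), (univ.filter (fun ω => u ω ≠ v ω)) ⊆ G ∧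
          (∀ ω ∈ G, ∀ ω' : ι → Γ, (∀ i ∈ E, ω' i = ω i) → ω' ∈ G) ∧
          2 * Q * G.card + p * S ≤ 2 * Q * S) := by
    intro p
    induction p with
    | zero =>
      refine ⟨∅, by simp, Or.inr ⟨univ, Finset.subset_univ _, fun _ _ _ _ => Finset.mem_univ _, ?_⟩⟩
      simp [hS]
    | succ p ih =>
      obtain ⟨E, hE, h⟩ := ih
      by_cases hhit : ∀ T : Finset ι, Disjoint T E → T.card ≤ t → ¬ Agree z T u v
      · exact ⟨E, hE.trans (Nat.mul_le_mul_right _ (Nat.le_succ _)), Or.inl hhit⟩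
      obtain ⟨G, hG1, hG2, hG3⟩ := h.resolve_left hhit
      push Not at hhit
      obtain ⟨T, hTE, hTt, hTa⟩ := hhit
      refine ⟨E ∪ T, ?_, Or.inr ⟨G.filter (fun ω => ¬ ∀ i ∈ T, ω i = z), ?_, ?_, ?_⟩⟩
      · refine (Finset.card_union_le _ _).trans ?_
        rw [Nat.succ_mul]; omega
      · intro ω hω
        refine Finset.mem_filter.mpr ⟨hG1 hω, fun hz => ?_⟩
        exact (Finset.mem_filter.mp hω).2 (hTa ω hz)
      · intro ω hω ω' hω'
        obtain ⟨hωG, hωT⟩ := Finset.mem_filter.mp hω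
        refine Finset.mem_filter.mpr ⟨hG2 ω hωG ω' fun i hi => hω' i (Finset.mem_union_left _ hi),
          fun hz => hωT fun i hi => ?_⟩
        rw [← hω' i (Finset.mem_union_right _ hi)]
        exact hz i hi
      · have hsplit := Finset.card_filter_add_card_filter_not (s := G) (fun ω => ∀ i ∈ T, ω i = z)
        have hfib : G.card ≤ Q * (G.filter (fun ω => ∀ i ∈ T, ω i = z)).card := by
          refine Finset.card_le_mul_card_image_of_maps_to
            (f := fun ω i => if i ∈ T then z else ω i) (fun ω hω => ?_) Q ?_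
          · refine Finset.mem_filter.mpr ⟨hG2 ω hω _ fun i hi => ?_, fun i hi => by simp [hi]⟩
            have : i ∉ T := fun h => Finset.disjoint_left.mp hTE h hi
            simp [this]
          · intro ω0 _
            refine le_trans (Finset.card_le_card (t := box T ω0) ?_) ?_
            · intro ω hω
              refine mem_box.mpr fun i hi => ?_
              have := congrFun (Finset.mem_filter.mp hω).2 i
              simpa [hi] using this
            · rw [card_box]
              exact Nat.pow_le_pow_right hq hTt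
        have hGc := Finset.card_le_card hG1
        set g0 := (G.filter (fun ω => ∀ i ∈ T, ω i = z)).card
        set g1 := (G.filter (fun ω => ¬ ∀ i ∈ T, ω i = z)).card
        rw [← hsplit] at hG3
        nlinarith
  obtain ⟨E, hE, h | ⟨G, hG1, -, hG3⟩⟩ := key Q
  · exact ⟨E, hE, h⟩
  · exfalso
    have hGc := Finset.card_le_card hG1
    have : Q * (2 * G.card) ≤ Q * S := by nlinarith
    have := Nat.le_of_mul_le_mul_left this hQ0
    omega

lemma exists_lev_eq [DecidableEq Al] (z : Γ) (A : ℕ) (u v : (ι → Γ) → Al)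
    (hdis : Fintype.card (ι → Γ) < 2 * (univ.filter (fun ω => u ω ≠ v ω)).card) :
    ∃ E : Finset ι, E.card ≤ Fintype.card Γ ^ (2 ^ A) * 2 ^ A ∧ lev z A E u v = A := by
  obtain ⟨E, hE, h⟩ := exists_far z (2 ^ A) u v hdis
  refine ⟨E, hE, le_antisymm (lev_le _ _ _ _ _) ?_⟩
  rcases (lev_le_iff (z := z) (A := A) (E := E) (u := u) (v := v)).mp le_rfl with
    h' | ⟨T, h1, h2, h3⟩
  · exact h'
  · exact absurd h3 (h T h1 (h2.trans (Nat.pow_le_pow_right (by norm_num) (lev_le _ _ _ _ _))))

lemma card_slice (z : Γ) (i : ι) :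
    (univ.filter (fun ω : ι → Γ => ω i = z)).card = Fintype.card Γ ^ (Fintype.card ι - 1) := by
  have : (univ.filter (fun ω : ι → Γ => ω i = z)) = box (univ.erase i) (fun _ => z) := by
    ext ω
    simp [mem_box]
  rw [this, card_box, Finset.card_erase_of_mem (Finset.mem_univ _), Finset.card_univ]

end lev

end Crest.Agent.R71
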