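import Crest.Agent.R71.Geom
import Crest.Agent.R71.Ultra
import Crest.Agent.R71.Words

set_option autoImplicit false
open Pointwise Crest.AnalysisR Finset

namespace Crest.Agent.R71

lemma final_ineq (b : ℝ) (B c0 N K1 h S t : ℕ) (hB : b ≤ B) (hc0 : 1 ≤ c0)
    (hh : 1 ≤ h) (hN : N = 2 ^ S * c0 ^ B + 1) (hS : S = 2 * (B * K1 + 1) * h)
    (ht : N ^ S ≤ t * (2 ^ S * N ^ ((B * K1 + 1) * h))) :
    b * Real.log ((c0 * (N ^ h) ^ K1 : ℕ) : ℝ) < Real.log t := by
  have hN0 : 0 < N := by omega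
  set Y := c0 * (N ^ h) ^ K1 with hY
  have hY0 : 0 < Y := by positivity
  have h1 : N ^ ((B * K1 + 1) * h) ≤ t * 2 ^ S := by
    have e : N ^ S = N ^ ((B * K1 + 1) * h) * N ^ ((B * K1 + 1) * h) := by
      rw [← pow_add]; congr 1; rw [hS]; ring
    rw [e, ← mul_assoc] at ht
    exact Nat.le_of_mul_le_mul_right ht (pow_pos hN0 _)
  have h2 : Y ^ B < t := by
    have e1 : N ^ ((B * K1 + 1) * h) = ((N ^ h) ^ K1) ^ B * N ^ h := by
      rw [← pow_mul, ← pow_mul, ← pow_add]; congr 1; ring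
    have e2 : N ≤ N ^ h := Nat.le_self_pow (by omega) N
    have e3 : Y ^ B * 2 ^ S < ((N ^ h) ^ K1) ^ B * N ^ h := by
      rw [hY, mul_pow, mul_comm (c0 ^ B), mul_assoc]
      refine Nat.mul_lt_mul_of_pos_left ?_ (by positivity)
      rw [mul_comm]; omega
    rw [← e1] at e3
    exact Nat.lt_of_mul_lt_mul_right (e3.trans_le h1)
  have hlog : 0 ≤ Real.log Y := Real.log_nonneg (by exact_mod_cast hY0)
  calc b * Real.log Y ≤ B * Real.log Y := mul_le_mul_of_nonneg_right hB hlog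
    _ = Real.log ((Y ^ B : ℕ) : ℝ) := by rw [Nat.cast_pow, Real.log_pow]
    _ < Real.log t := Real.log_lt_log (by positivity) (by exact_mod_cast h2)

theorem main (a b : ℝ) (ha : 1 ≤ a) (hb : 1 ≤ b) :
    ∃ n : ℕ, 0 < n ∧ ∃ K : Set (EuclideanSpace ℝ (Fin n)),
      Convex ℝ K ∧ IsCompact K ∧ (interior K).Nonempty ∧ (∀ x ∈ K, -x ∈ K) ∧
      ∃ t₁ : Finset (EuclideanSpace ℝ (Fin n)),
        polarSet {x : EuclideanSpace ℝ (Fin n) | ∀ i, |x i| ≤ 1} ⊆
          ⋃ y ∈ t₁, (y +ᵥ a⁻¹ • polarSet K) ∧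
        ∀ t₂ : Finset (EuclideanSpace ℝ (Fin n)),
          K ⊆ ⋃ x ∈ t₂, (x +ᵥ {z : EuclideanSpace ℝ (Fin n) | ∀ i, |z i| ≤ 1}) →
          b * Real.log t₁.card < Real.log t₂.card := by
  classical
  have ha0 : 0 < a := by linarith
  -- parameters
  obtain ⟨A, hA⟩ : ∃ A : ℕ, 36 * a ≤ A := ⟨⌈36 * a⌉₊, Nat.le_ceil _⟩
  obtain ⟨c, hc⟩ : ∃ c : ℕ, 24 * a ≤ c := ⟨⌈24 * a⌉₊, Nat.le_ceil _⟩
  obtain ⟨B, hB⟩ : ∃ B : ℕ, b ≤ B := ⟨⌈b⌉₊, Nat.le_ceil _⟩
  have hA0 : (0 : ℝ) < A := by linarith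
  have hc0 : (0 : ℝ) < c := by linarith
  have hc1 : 0 < c := by exact_mod_cast hc0
  obtain ⟨K, hK⟩ : ∃ K' : ℕ, K' = A * c + 1 := ⟨_, rfl⟩
  obtain ⟨q, hq⟩ : ∃ q' : ℕ, q' = 2 * (B * (K + 1) + 1) := ⟨_, rfl⟩
  have hq0 : 0 < q := by omega
  obtain ⟨e, he⟩ : ∃ e' : ℕ, e' = q ^ (2 ^ A) * 2 ^ A := ⟨_, rfl⟩
  have he0 : 0 < e := by rw [he]; positivity
  obtain ⟨m, hm⟩ : ∃ m' : ℕ, m' = c * e := ⟨_, rfl⟩
  have hm0 : 0 < m := by rw [hm]; positivity
  let z : Fin q := ⟨0, hq0⟩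
  let St : Type := {E : Finset (Fin m) // E.card ≤ e}
  obtain ⟨net, hnet⟩ := exists_net (St × Fin (K + 1) × Fin (A + 1)) A
  obtain ⟨h, hh⟩ : ∃ h' : ℕ, h' = q ^ (m - 1) := ⟨_, rfl⟩
  have hh1 : 1 ≤ h := by rw [hh]; exact Nat.one_le_pow _ _ hq0
  obtain ⟨S, hS⟩ : ∃ S' : ℕ, S' = q ^ m := ⟨_, rfl⟩
  have hSh : S = 2 * (B * (K + 1) + 1) * h := by
    rw [hS, hh, ← hq, ← pow_succ']; congr 1; omega
  obtain ⟨c0, hc0def⟩ : ∃ c0' : ℕ, c0' = m * (net.card + 1) := ⟨_, rfl⟩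
  have hc01 : 1 ≤ c0 := Nat.one_le_iff_ne_zero.mpr (by rw [hc0def]; positivity)
  obtain ⟨N, hN⟩ : ∃ N : ℕ, N = 2 ^ S * c0 ^ B + 1 := ⟨_, rfl⟩
  have hN0 : 0 < N := by omega
  let Wd : Type := (Fin m → Fin q) → Fin N
  let u0 : Wd := fun _ => ⟨0, hN0⟩
  have : Nonempty (Fin N) := ⟨⟨0, hN0⟩⟩
  have : Nonempty (Fin m) := ⟨⟨0, hm0⟩⟩
  have : Nonempty St := ⟨⟨∅, by simp⟩⟩
  have hcardΩ : Fintype.card (Fin m → Fin q) = S := by simp [hS]
  have hcardW : Fintype.card Wd = N ^ S := by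
    rw [← hcardΩ]; simp [Wd]
  let d : St → Wd → Wd → ℕ := fun E u v => lev z A E.1 u v
  let R : Fin m → Finset Wd := fun i => box (univ.filter (fun ω : Fin m → Fin q => ω i = z)) u0
  have hRcard : ∀ i, (R i).card = N ^ h := by
    intro i
    simp only [R]
    rw [card_box, card_slice]
    simp [hh]
  let X : Type := St × Wd
  let eq : X ≃ Fin (Fintype.card X) := Fintype.equivFin X
  let M : Fin (Fintype.card X) → Wd → ℝ := fun j u =>
    3 / A * (d (eq.symm j).1 u (eq.symm j).2 : ℝ)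
  let g : (Fin (K + 1) → Wd) × (St × Fin (K + 1) × Fin (A + 1) → ℝ) → Wd → ℝ := fun p u =>
    3 / A * ∑ y, p.2 y * ((max (d y.1 u (p.1 y.2.1)) y.2.2 : ℕ) : ℝ)
  let C : Finset (Wd → ℝ) := (univ : Finset (Fin m)).biUnion fun i =>
    ((Fintype.piFinset fun _ : Fin (K + 1) => R i) ×ˢ net).image g
  have hdA : ∀ E u v, d E u v ≤ A := fun E u v => lev_le _ _ _ _ _
  refine reduction (n := Fintype.card X) Fintype.card_pos a b ha hb M ?_ C
    (c0 * (N ^ h) ^ (K + 1)) (2 ^ S * N ^ ((B * (K + 1) + 1) * h)) ?_ ?_ ?_ ?_ ?_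
  · intro j u
    simp only [M]
    rw [abs_of_nonneg (by positivity)]
    have : (d (eq.symm j).1 u (eq.symm j).2 : ℝ) ≤ A := by exact_mod_cast hdA _ _ _
    calc 3 / (A : ℝ) * (d (eq.symm j).1 u (eq.symm j).2 : ℝ) ≤ 3 / A * A :=
          mul_le_mul_of_nonneg_left this (by positivity)
      _ = 3 := by field_simp
  · exact Nat.one_le_iff_ne_zero.mpr (by positivity)
  · intro μ hμ
    obtain ⟨i, V, hV, ν', hν', hest⟩ := cover (X := Fin (Fintype.card X)) d A K hdA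
      (fun E u v => lev_symm _ _ _ _ _) (fun E u v w => lev_quasi _ _ _ _ _ _) (1 / c)
      (by
        rw [hK]; push_cast
        have : ((A : ℝ) * c + 1) * (1 / c) = A + 1 / c := by field_simp
        rw [this]
        have : (0 : ℝ) < 1 / c := by positivity
        linarith)
      (fun (i : Fin m) (E : St) => i ∈ E.1)
      (by
        intro E
        have h1 : (univ.filter (fun i : Fin m => i ∈ E.1)) = E.1 := by ext; simp
        have : (1 / (c : ℝ)) * m = e := by rw [hm]; push_cast; field_simp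
        rw [h1, Fintype.card_fin, this]
        exact_mod_cast E.2)
      R
      (by
        intro i u
        refine ⟨fun ω => if ω i = z then u ω else u0 ω, mem_box.mpr fun ω hω => ?_, ?_⟩
        · have : ¬ ω i = z := by simpa using hω
          simp [this]
        · intro E hE
          exact lev_eq_zero A hE fun ω hω => by simp [hω])
      net hnet (fun j => (eq.symm j).1) (fun j => (eq.symm j).2) μ hμ
    refine ⟨g (V, ν'), ?_, fun u => ?_⟩
    · refine Finset.mem_biUnion.mpr ⟨i, Finset.mem_univ _, Finset.mem_image_of_mem _ ?_⟩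
      exact Finset.mem_product.mpr ⟨Fintype.mem_piFinset.mpr hV, hν'⟩
    · have h1 := hest u
      have e1 : ∑ x, μ x * M x u - g (V, ν') u = 3 / A *
          (∑ x, μ x * (d (eq.symm x).1 u (eq.symm x).2 : ℝ) -
            ∑ y, ν' y * ((max (d y.1 u (V y.2.1)) y.2.2 : ℕ) : ℝ)) := by
        simp only [M, g]
        rw [mul_sub]
        congr 1
        rw [Finset.mul_sum]
        exact Finset.sum_congr rfl fun x _ => by ring
      rw [e1, abs_mul, abs_of_pos (by positivity : (0 : ℝ) < 3 / A)]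
      calc 3 / (A : ℝ) * |∑ x, μ x * (d (eq.symm x).1 u (eq.symm x).2 : ℝ) -
            ∑ y, ν' y * ((max (d y.1 u (V y.2.1)) y.2.2 : ℕ) : ℝ)|
          ≤ 3 / A * (3 + 2 * (1 / c) * A) := mul_le_mul_of_nonneg_left h1 (by positivity)
        _ = 9 / A + 6 / c := by field_simp; ring
        _ ≤ 1 / (4 * a) + 1 / (4 * a) := by
          gcongr ?_ + ?_
          · rw [div_le_div_iff₀ hA0 (by positivity)]; linarith
          · rw [div_le_div_iff₀ hc0 (by positivity)]; linarith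
        _ = 1 / (2 * a) := by field_simp; ring
  · refine (Finset.card_biUnion_le_card_mul _ _ ((N ^ h) ^ (K + 1) * net.card) ?_).trans ?_
    · intro i _
      refine Finset.card_image_le.trans ?_
      rw [Finset.card_product, Fintype.card_piFinset]
      simp [hRcard]
    · rw [Finset.card_univ, Fintype.card_fin, hc0def]
      calc m * ((N ^ h) ^ (K + 1) * net.card) ≤ m * ((N ^ h) ^ (K + 1) * (net.card + 1)) := by
            gcongr; omega
        _ = m * (net.card + 1) * (N ^ h) ^ (K + 1) := by ring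
  · intro v
    have hnear := card_near (α := Fin m → Fin q) (β := Fin N) v ((B * (K + 1) + 1) * h)
    rw [hcardΩ, Fintype.card_fin] at hnear
    refine le_trans (Finset.card_le_card ?_) hnear
    intro u hu
    simp only [Finset.mem_filter, Finset.mem_univ, true_and] at hu ⊢
    by_contra hcon
    obtain ⟨E, hE, hlev⟩ := exists_lev_eq z A u v (by
      rw [hcardΩ, hSh, mul_assoc]; omega)
    rw [Fintype.card_fin, ← he] at hE
    have := hu (eq (⟨E, hE⟩, v))
    simp only [M, d, Equiv.symm_apply_apply, hlev, lev_self] at this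
    have e2 : 3 / (A : ℝ) * A = 3 := by field_simp
    rw [e2] at this
    norm_num at this
  · intro t ht
    rw [hcardW] at ht
    exact final_ineq b B c0 N (K + 1) h S t hB hc01 hh1 hN hSh ht

end Crest.Agent.R71
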